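import Mathlib
import Vale.Agent.P308.Defs
import Vale.Agent.P308.Main

namespace Vale.Agent.Results.P308.FPRAS

open Vale.Agent.P308

/-- An FPRAS for the number of perfect matchings of an arbitrary finite simple graph.  One
polynomial-time Turing machine with finite alphabets reads `n`, `⌈1 / ε⌉`, `⌈1 / δ⌉`, the adjacency
matrix and `T` fair coin tosses.  As soon as `T ≥ k (n + 1 / ε + log (1 / δ)) ^ k`, it stops within
`k (n + 1 / ε + log (1 / δ) + T) ^ k` steps, and for at least a `1 - δ` fraction of the coin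
tosses it outputs a number within a factor `1 ± ε` of the number of perfect matchings. -/
theorem result :
    ∃ (F : List ℕ → List ℕ) (M : Turing.TM2ComputableInPolyTime code code F) (k : ℕ),
      (∀ s, Finite (M.tm.Γ s)) ∧
      ∀ (n : ℕ) (G : SimpleGraph (Fin n)) (ε δ : ℝ), 0 < ε → ε < 1 → 0 < δ → δ < 1 / 2 →
        ∀ T : ℕ, (k : ℝ) * (n + 1 / ε + Real.log (1 / δ)) ^ k ≤ T →
          (∀ ω : Fin T → Bool, ((M.time.eval (code (input G ε δ ω)).length : ℕ) : ℝ) ≤
            k * (n + 1 / ε + Real.log (1 / δ) + T) ^ k) ∧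
          (1 - δ) * 2 ^ T ≤ ({ω : Fin T → Bool | ∃ z : ℕ, F (input G ε δ ω) = [z] ∧
            (1 - ε) * numPM G ≤ z ∧ (z : ℝ) ≤ (1 + ε) * numPM G}.ncard : ℝ) :=
  main

end Vale.Agent.Results.P308.FPRAS
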